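import Vale.Agent.P354CB.Ez

/-!
Every point of an acausal Cauchy surface has small neighbourhoods which contain everything
between their points and the surface.
-/

open Set Filter Topology

namespace Vale.Agent.P354CB51

open Vale.Agent.P354n Vale.Agent.P354CB

variable {M : Spc} {S W : Set M.pt}

/-- The points above a point outside of the open set `W` form a closed set. -/
theorem closed_up (L : L1) (h : St M) (G : G2 M S) (hW : IsOpen W) :
    IsClosed {x | ∃ z, z ∉ Pa M S ∧ Le M z x ∧ z ∉ W} := by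
  refine isClosed_of_closure_subset fun x hx => ?_
  obtain ⟨y, hy⟩ : {b | LL M x b}.Nonempty := closure_nonempty_iff.1 ⟨x, L.b.nearF h x⟩
  have hK : IsCompact ({z | z ∉ Pa M S ∧ Le M z y} ∩ Wᶜ) := (G.cpt y).inter_right hW.isClosed_compl
  set K : Set M.pt := {z | z ∉ Pa M S ∧ Le M z y} ∩ Wᶜ with hKd
  have : CompactSpace K := isCompact_iff_compactSpace.1 hK
  have hD : IsClosed {p : K × M.pt | (p.1 : M.pt) ∉ Pa M S ∧ Le M p.1 p.2} :=
    G.cl.preimage (f := fun p : K × M.pt => ((p.1 : M.pt), p.2)) (by fun_prop)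
  have hE := isClosedMap_snd_of_compactSpace _ hD
  have hx' := (L.opP h y).inter_closure ⟨hy, hx⟩
  have : x ∈ Prod.snd '' {p : K × M.pt | (p.1 : M.pt) ∉ Pa M S ∧ Le M p.1 p.2} := by
    refine hE.closure_subset_iff.2 ?_ hx'
    rintro a ⟨ha, z, z1, z2, z3⟩
    exact ⟨(⟨z, ⟨z1, z2.trans (L.le h ha)⟩, z3⟩, a), ⟨z1, z2⟩, rfl⟩
  obtain ⟨⟨z, a⟩, ⟨z1, z2⟩, rfl⟩ := this
  exact ⟨z, z1, z2, z.2.2⟩

theorem eq_of_le (h : GH M S) (G : G1 M S) {z s : M.pt} (hs : s ∈ S) (hz : z ∉ Pa M S)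
    (k : Le M z s) : z = s := by
  rcases G.tri z with m | ⟨t, m, l⟩ | m
  · exact h.ac z m s hs k
  · exact absurd (k.2 t l) (G.achr t m s hs)
  · exact absurd m hz

theorem eq_of_ge (h : GH M S) (G : G1 M S) {z s : M.pt} (hs : s ∈ S) (hz : z ∉ Fu M S)
    (k : Le M s z) : z = s := by
  rcases G.tri z with m | m | ⟨t, m, l⟩
  · exact (h.ac s hs z m k).symm
  · exact absurd m hz
  · exact absurd (k.1 t l) (G.achr s hs t m)

theorem base (L : L1) (G : GONE) (O : ORD) {M : Spc} {S : Set M.pt} (h : GH M S) :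
    ∀ s ∈ S, ∀ W ∈ 𝓝 s, ∃ U ⊆ W, Hull M S U ∧ s ∈ U := by
  intro s hs W0 hW0
  obtain ⟨W, hs0, hW, hsW⟩ := mem_nhds_iff.1 hW0
  have st := h.st
  have g := G M S h.toGH0
  have c1 := closed_up L st (O M S h.toGH0) hW
  have c2 : IsClosed {x | ∃ z, z ∉ Fu M S ∧ Le M x z ∧ z ∉ W} := by
    simpa only [L.b.pa_rev st, L.b.le_rev st] using
      closed_up (M := rev M) (S := S) (W := W) L (L.b.st_rev st)
        (O (rev M) S (L.b.gh0_rev h.toGH0)) hW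
  refine ⟨({x | ∃ z, z ∉ Pa M S ∧ Le M z x ∧ z ∉ W} ∪ {x | ∃ z, z ∉ Fu M S ∧ Le M x z ∧ z ∉ W})ᶜ,
    fun x hx => hs0 ?_, ⟨(c1.union c2).isOpen_compl, fun x hx w l n => ?_, fun x hx w l n => ?_⟩,
    ?_⟩
  · by_contra n
    by_cases p : x ∈ Pa M S
    · exact hx (Or.inr ⟨x, fun f => L.fu_pa st g f p, Le.rfl, n⟩)
    · exact hx (Or.inl ⟨x, p, Le.rfl, n⟩)
  · rintro (⟨z, z1, z2, z3⟩ | ⟨z, z1, z2, z3⟩)
    · exact hx (Or.inl ⟨z, z1, z2.trans (L.le st l), z3⟩)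
    · rcases g.tri w with m | ⟨t, m, k⟩ | m
      · obtain rfl := eq_of_ge h g m z1 z2
        exact hx (Or.inl ⟨z, n, L.le st l, z3⟩)
      · exact z1 ⟨t, m, z2.2 t k⟩
      · exact n m
  · rintro (⟨z, z1, z2, z3⟩ | ⟨z, z1, z2, z3⟩)
    · rcases g.tri w with m | m | ⟨t, m, k⟩
      · obtain rfl := eq_of_le h g m z1 z2
        exact hx (Or.inr ⟨z, n, L.le st l, z3⟩)
      · exact n m
      · exact z1 ⟨t, m, z2.1 t k⟩
    · exact hx (Or.inr ⟨z, z1, (L.le st l).trans z2, z3⟩)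
  · rintro (⟨z, z1, z2, z3⟩ | ⟨z, z1, z2, z3⟩)
    · exact z3 (eq_of_le h g hs z1 z2 ▸ hsW)
    · exact z3 (eq_of_ge h g hs z1 z2 ▸ hsW)

end Vale.Agent.P354CB51
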